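import Vale.Agent.P043.MathlibUsed

/-!
# Euclidean statement-level definitions for P043
-/

namespace Vale.Agent.P043.Eu

open MeasureTheory

/-- The translates `Ω + a`, `a ∈ A`, cover `ℝ^d` up to a null set and pairwise intersect in null
sets. -/
def TilesAE {d : ℕ} (Om A : Set (Fin d → ℝ)) : Prop :=
  volume (⋃ a ∈ A, {x | x - a ∈ Om})ᶜ = 0 ∧
    ∀ a ∈ A, ∀ b ∈ A, a ≠ b → volume ({x | x - a ∈ Om} ∩ {x | x - b ∈ Om}) = 0

/-- `A` is invariant under a lattice of rank `d`, i.e. under all vectors of some basis of `ℝ^d`. -/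
def LatticePeriodic {d : ℕ} (A : Set (Fin d → ℝ)) : Prop :=
  ∃ b : Module.Basis (Fin d) ℝ (Fin d → ℝ), ∀ i, ∀ a, b i + a ∈ A ↔ a ∈ A

end Vale.Agent.P043.Eu
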